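import Vale.Agent.P354XP.Props
import Vale.Agent.P354XQ.Top
import Vale.Agent.P354XK.KF
import Vale.Agent.P354KW.Alg

/-!
QP and BG: the pull back by maps of bounded geometry.
-/

open scoped ContDiff
open Set Filter Topology Matrix

noncomputable section

namespace Vale.Agent.P354PP

open Vale.Agent.P354I (X Dat Cy1 Cyl pd ee)
open Vale.Agent.P354T (Sm DSm qf UP)
open Vale.Agent.P354M2 (Hb pd_sm qf_pull pull3)
open Vale.Agent.P354XS (wq wi qm ds)
open Vale.Agent.P354XQ (le_of_wq wq_le_of wq_congr qm_parts qm_le_of wi_pos)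
open Vale.Agent.P354XP

/-- The pull back of a tensor. -/
def pl (ψ : X → X) (F : Fin 3 → Fin 3 → X → ℝ) (i j : Fin 3) (y : X) : ℝ :=
  ∑ k, ∑ l, pd i ψ y k * pd j ψ y l * F k l (ψ y)

variable {B : ℕ → ℝ} {ψ : X → X} {F : Fin 3 → Fin 3 → X → ℝ}

theorem pl_sm (h : Cy1 B ψ) (hF : ∀ k l, Sm (F k l)) (i j : Fin 3) : Sm (pl ψ F i j) :=
  ContDiffOn.sum fun k _ => ContDiffOn.sum fun l _ =>
    ((pd_sm h.sm i k).mul (pd_sm h.sm j l)).mul ((hF k l).comp h.sm h.ne)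

theorem hb_pl (B : ℕ → ℝ) (m : ℕ) : ∃ C > 0, ∀ (ψ : X → X) (F : Fin 3 → Fin 3 → X → ℝ) (y : X)
    (η : ℝ), Cy1 B ψ → (∀ k l, Sm (F k l)) → y ≠ 0 → (∀ k l, Hb m (F k l) (ψ y) η) →
    ∀ i j, Hb m (pl ψ F i j) y (C * η * (‖ψ y‖ ^ 2 / ‖y‖ ^ 2)) := by
  obtain ⟨D, hD, hB⟩ : ∃ D, 1 ≤ D ∧ ∀ j ≤ m + 1, B j ≤ D := by
    have h0 : 0 ≤ ∑ j ∈ Finset.range (m + 2), |B j| := Finset.sum_nonneg fun _ _ => abs_nonneg _
    refine ⟨1 + ∑ j ∈ Finset.range (m + 2), |B j|, by linarith, fun j hj => ?_⟩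
    have := Finset.single_le_sum (f := fun j => |B j|) (fun _ _ => abs_nonneg _)
      (Finset.mem_range.2 (show j < m + 2 by omega))
    linarith [le_abs_self (B j)]
  have D0 : 0 < D := by linarith
  refine ⟨9 * (2 ^ m * (2 ^ m * D * D) * (m.factorial * D ^ m)), by positivity,
    fun ψ F y η h hF hy hw i j => ?_⟩
  have y0 : 0 < ‖y‖ := norm_pos_iff.2 hy
  have h1 : Hb (m + 1) ψ y (D * ‖ψ y‖) := fun j hj =>
    (h.bd j y hy).trans (mul_le_mul_of_nonneg_right (hB j hj) (norm_nonneg _))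
  have s1 : ∀ k l, Sm fun y => F k l (ψ y) := fun k l => (hF k l).comp h.sm h.ne
  have s2 : ∀ k l, Sm fun y => pd i ψ y k * pd j ψ y l := fun k l =>
    (pd_sm h.sm i k).mul (pd_sm h.sm j l)
  have h2 := fun k l => (((h1.pd h.sm hy i k).mul (pd_sm h.sm i k) (pd_sm h.sm j l) hy
    (h1.pd h.sm hy j l)).mul (s2 k l) (s1 k l) hy (Hb.comp (hF k l) h.sm h.ne hy hD
      (hw k l) (h1.mono m.le_succ le_rfl)))
  refine (Hb.sum Finset.univ (fun k => ContDiffOn.sum fun l _ => (s2 k l).mul (s1 k l)) hy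
    fun k => Hb.sum Finset.univ (fun l => (s2 k l).mul (s1 k l)) hy (h2 k)).mono le_rfl
    (le_of_eq ?_)
  simp only [Finset.card_univ, Fintype.card_fin]
  push_cast
  field_simp
  ring

theorem hb_of_wq {w : X → ℝ} {m : ℕ} {f : X → ℝ} {η : ℝ} {y : X} (hη : 0 ≤ η)
    (h : wq w m f ≤ ENNReal.ofReal η) (hy : y ≠ 0) (hw : 0 < w y) :
    Hb m f y (η / (w y * ‖y‖ ^ 2)) := fun j hj => by
  have := norm_pos_iff.2 hy
  rw [le_div_iff₀' (by positivity)]
  exact le_of_eq_of_le (by ring) (le_of_wq hj hη h hy)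

theorem wq_pl (B : ℕ → ℝ) (m : ℕ) : ∃ C > 0, ∀ (w : X → ℝ) (ψ : X → X)
    (F : Fin 3 → Fin 3 → X → ℝ) (η : ℝ), 0 ≤ η → Cy1 B ψ → (∀ k l, Sm (F k l)) →
    (∀ y ≠ 0, 0 < w y ∧ w y ≤ 2 * w (ψ y)) → (∀ k l, wq w m (F k l) ≤ ENNReal.ofReal η) →
    ∀ i j, wq w m (pl ψ F i j) ≤ ENNReal.ofReal (C * η) := by
  obtain ⟨C, C0, hC⟩ := hb_pl B m
  refine ⟨(m + 1) * (2 * C), by positivity, fun w ψ F η hη h hF hw b i j => ?_⟩
  rw [mul_assoc]
  refine wq_le_of fun n hn y hy => ?_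
  have y0 := norm_pos_iff.2 hy
  have t0 := norm_pos_iff.2 (h.ne y hy)
  have w0 := (hw _ (h.ne y hy)).1
  have w1 := (hw y hy).1
  have k := mul_le_mul_of_nonneg_left (hC ψ F y _ h hF hy
    (fun k l => hb_of_wq hη (b k l) (h.ne y hy) w0) i j n hn) (show 0 ≤ w y * ‖y‖ ^ 2 by positivity)
  have k2 := mul_le_mul_of_nonneg_left ((div_le_iff₀ w0).2 (hw y hy).2) (mul_nonneg C0.le hη)
  refine (le_of_eq_of_le (by ring) k).trans (le_trans (le_of_eq ?_) (k2.trans_eq (by ring)))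
  field_simp

theorem qp : QP := fun B m => by
  obtain ⟨C, C0, hC⟩ := wq_pl B m
  refine ⟨18 * C, by positivity, fun ψ d d' h hn D D' => ?_⟩
  rcases eq_or_ne (qm m d d') ⊤ with e | e
  · rw [e, ENNReal.mul_top (ENNReal.ofReal_pos.2 (by positivity)).ne']
    exact le_top
  have e' := (ENNReal.ofReal_toReal e).symm
  have η0 : 0 ≤ (qm m d d').toReal := ENNReal.toReal_nonneg
  rw [e', ← ENNReal.ofReal_mul (by positivity), mul_assoc]
  refine qm_le_of (by positivity) fun i j => ⟨?_, ?_⟩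
  · refine le_of_eq_of_le (wq_congr _ m fun y _ => ?_)
      (hC wi ψ (fun k l y => d.h y k l - d'.h y k l) _ η0 h (fun k l => (D k l).1.sub (D' k l).1)
        (fun y hy => ⟨wi_pos hy, ?_⟩) (fun k l => (qm_parts e'.le k l).1) i j)
    · simp only [Dat.pull, of_apply, mul_sub, Finset.sum_sub_distrib, pl]
    · have y0 := norm_pos_iff.2 hy
      have t0 := norm_pos_iff.2 (h.ne y hy)
      have k : ‖ψ y‖⁻¹ ≤ 2 * ‖y‖⁻¹ := by
        rw [← div_eq_mul_inv, inv_eq_one_div, div_le_div_iff₀ t0 y0, one_mul]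
        exact (hn y hy).1
      rw [wi, wi, ← div_eq_mul_inv, inv_eq_one_div, div_le_div_iff₀ (by positivity) (by positivity)]
      linarith [(hn y hy).2]
  · refine le_of_eq_of_le (wq_congr _ m fun y _ => ?_)
      (hC 1 ψ (fun k l y => d.K y k l - d'.K y k l) _ η0 h (fun k l => (D k l).2.sub (D' k l).2)
        (fun y _ => by norm_num) (fun k l => (qm_parts e'.le k l).2) i j)
    simp only [Dat.pull, of_apply, mul_sub, Finset.sum_sub_distrib, pl]

/-- The decay of the data. -/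
theorem decay {M a : ℝ} (ha : |a| < M) (d : P354XS.DA M a) (m : ℕ) : ∃ C ≥ 0, ∀ y : X, 1 ≤ ‖y‖ →
    ∀ i j, Hb m (fun z => d.1.h z i j - (1 : P354J.M3) i j) y (C / ‖y‖) ∧
      Hb m (fun z => d.1.K z i j) y (C / ‖y‖ ^ 2) := by
  choose c hc using P354XK.kf M a ha
  have e := (ENNReal.ofReal_toReal (d.2.2.2 m).ne).symm
  have η0 : 0 ≤ (qm m d.1 (ds M a)).toReal := ENNReal.toReal_nonneg
  generalize (qm m d.1 (ds M a)).toReal = η at e η0
  have s0 : 0 ≤ ∑ n ∈ Finset.range (m + 1), |c n| := Finset.sum_nonneg fun _ _ => abs_nonneg _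
  have s1 : ∀ n ≤ m, c n ≤ ∑ n ∈ Finset.range (m + 1), |c n| := fun n hn => (le_abs_self _).trans
    (Finset.single_le_sum (f := fun n => |c n|) (fun _ _ => abs_nonneg _)
      (Finset.mem_range.2 (by omega)))
  generalize ∑ n ∈ Finset.range (m + 1), |c n| = S at s0 s1
  refine ⟨2 * η + S, by positivity, fun y y1 i j => ?_⟩
  have y0 : 0 < ‖y‖ := by linarith
  have hy := norm_pos_iff.1 y0
  have D := d.2.1.1 i j
  have D' := (P354XK.pdy ha).1 i j
  have h1 := hb_of_wq η0 (qm_parts e.le i j).1 hy (wi_pos hy)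
  have h2 := hb_of_wq η0 (qm_parts e.le i j).2 hy one_pos
  have h3 : Hb m (fun z => (ds M a).h z i j - (1 : P354J.M3) i j) y (S / ‖y‖) := fun n hn => by
    rw [le_div_iff₀' y0]
    exact (le_of_eq_of_le (by ring) (hc n y y1 i j).1).trans (s1 n hn)
  have h4 : Hb m (fun z => (ds M a).K z i j) y (S / ‖y‖ ^ 2) := fun n hn => by
    rw [le_div_iff₀' (by positivity)]
    refine le_trans ?_ ((hc n y y1 i j).2.trans (s1 n hn))
    rw [← mul_assoc, ← pow_add]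
    exact mul_le_mul_of_nonneg_right (pow_le_pow_right₀ y1 (by omega)) (norm_nonneg _)
  refine ⟨((h1.add (D.1.sub D'.1) (D'.1.sub contDiffOn_const) hy h3).congr
    (.of_forall fun z => by ring)).mono le_rfl ?_,
    ((h2.add (D.2.sub D'.2) D'.2 hy h4).congr (.of_forall fun z => by ring)).mono le_rfl ?_⟩
  · have k : ‖y‖⁻¹ ≤ ‖y‖ := (inv_le_one_of_one_le₀ y1).trans y1
    rw [add_div]
    refine add_le_add ?_ le_rfl
    calc η / (wi y * ‖y‖ ^ 2) = η * (‖y‖ + ‖y‖⁻¹) / ‖y‖ ^ 2 := by rw [wi]; field_simp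
      _ ≤ η * (‖y‖ + ‖y‖) / ‖y‖ ^ 2 := by gcongr
      _ = _ := by field_simp; ring
  · rw [Pi.one_apply, one_mul, ← add_div]
    gcongr
    linarith

theorem lam_norm (σ : Bool) (x : X) : ‖x‖ ≤ 2 * ‖Lam σ x‖ ∧ ‖Lam σ x‖ ≤ ‖x‖ := by
  have e : ‖Lam σ x‖ ^ 2 = x 1 ^ 2 / 4 + x 2 ^ 2 / 4 + x 0 ^ 2 := by
    rw [P354XK.nsq]
    simp only [Lam, cons_val_zero, cons_val_one, cons_val]
    linear_combination x 0 ^ 2 * P354E.sg_sq σ
  have e' := P354XK.nsq x
  exact ⟨le_of_sq_le_sq (by nlinarith [sq_nonneg (x 0)]) (by positivity),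
    le_of_sq_le_sq (by nlinarith [sq_nonneg (x 1), sq_nonneg (x 2)]) (norm_nonneg _)⟩

/-- The map Lam is linear. -/
def LamL (σ : Bool) : X →L[ℝ] X := LinearMap.toContinuousLinearMap
  { toFun := Lam σ
    map_add' := fun x y => by ext i; fin_cases i <;> simp [Lam] <;> ring
    map_smul' := fun c x => by ext i; fin_cases i <;> simp [Lam] <;> ring }

theorem bg : BG := fun M a ha d B => by
  choose c1 c0 hc using decay ha d
  choose C C0 hC using hb_pl B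
  obtain ⟨c, cp, hp⟩ := pull3 B 1 one_pos
  have hm : ∀ x y : ℝ, 0 < x → 0 < min x (x ^ 3) ∧ min x (x ^ 3) ≤ x := fun x _ h =>
    ⟨lt_min h (by positivity), min_le_left _ _⟩
  refine ⟨8 + 48 * c1 0, min (c / 8) ((c / 8) ^ 3), (hm _ 0 (by positivity)).1,
    fun k => C (k + 1) * (11 + 2 * c1 (k + 1)), fun σ ρ Ψ Θ hρ ⟨h, hn, hl⟩ x hx => ?_⟩
  have n := lam_norm σ x
  rw [← hn] at n
  have r1 : 1 ≤ ρ := by linarith [c0 0]
  have y1 : 1 ≤ ‖Ψ x‖ := by linarith [c0 0, n.1]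
  have x0 : 0 < ‖x‖ := by linarith
  have x1 := norm_pos_iff.1 x0
  have q1 : ‖Ψ x‖ ^ 2 / ‖x‖ ^ 2 ≤ 1 := div_le_one_of_le₀ (by gcongr; exact n.2) (sq_nonneg _)
  have pos : ∀ v : Fin 3 → ℝ, c / 8 * ∑ i, v i ^ 2 ≤ qf ((d.1.pull Ψ).h x) v := fun v => by
    have k := hp Ψ Θ ⟨fun y => (‖y‖ ^ 2)⁻¹ • 1, 0⟩ h (fun y hy v => by
      have := norm_pos_iff.2 hy
      simp only [qf, Fin.sum_univ_three, Matrix.smul_apply, smul_eq_mul]
      simp
      field_simp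
      rfl) x x1 v
    have k2 := fun w => P354T.qf_close (A := d.1.h (Ψ x)) (B := 1) (η := 1 / 6) zero_le_one
      (fun i j => by
        rw [one_mul]
        refine (hc 0 _ y1 i j).1.zero.trans ?_
        rw [div_le_iff₀ (by linarith)]
        linarith [n.1]) w
    rw [qf_pull] at k ⊢
    generalize (fun k => fderiv ℝ Ψ x (WithLp.toLp 2 v) k) = w at k ⊢
    have k3 := k2 w
    have e1 : qf 1 w = ∑ i, w i ^ 2 := by simp [qf, Fin.sum_univ_three, sq]
    have e2 : qf ((‖Ψ x‖ ^ 2)⁻¹ • 1) w = (‖Ψ x‖ ^ 2)⁻¹ * ∑ i, w i ^ 2 := by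
      simp [qf, Fin.sum_univ_three]; ring
    have s0 : 0 ≤ ∑ i, w i ^ 2 := Finset.sum_nonneg fun _ _ => sq_nonneg _
    have k4 : ‖x‖ ^ 2 * (‖Ψ x‖ ^ 2)⁻¹ ≤ 4 := by
      rw [← div_eq_mul_inv, div_le_iff₀ (by positivity)]
      nlinarith [n.1]
    rw [e2, ← mul_assoc] at k
    rw [e1] at k3
    linarith [mul_le_mul_of_nonneg_right k4 s0]
  have P := P354PU.pdy_pull h d.2.1
  refine ⟨fun v => ?_, (min_le_right _ _).trans (P354KW.det_ge
    (fun i j => (P354T.symm_of (P.2 x x1).1).apply j i) (by positivity) pos), fun k i j => ?_⟩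
  · refine le_trans (mul_le_mul (min_le_left _ _) (by simp [dotProduct, sq])
      (Finset.sum_nonneg fun _ _ => mul_self_nonneg _) (by positivity)) ((pos v).trans_eq ?_)
    rw [← P354T.qf_eq, star_trivial]
  have s0 : ∀ k l, Sm fun _ : X => (1 : P354J.M3) k l := fun _ _ => contDiffOn_const
  have s1 : ∀ k l, Sm fun z => d.1.h z k l - (1 : P354J.M3) k l := fun k l =>
    (d.2.1.1 k l).1.sub contDiffOn_const
  have Ck := C0 (k + 1)
  have ck := c0 (k + 1)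
  have h0 := (hC (k + 1) Ψ _ x 1 h.l s0 x1 (fun k l => (Hb.const _ _ _).mono le_rfl (by
    rw [one_apply]; split_ifs <;> simp)) i j).mono le_rfl
    ((mul_le_mul_of_nonneg_left q1 (by positivity)).trans_eq (by rw [mul_one, mul_one]))
  have h1 : Hb (k + 1) (pl Ψ (fun k l z => d.1.h z k l - (1 : P354J.M3) k l) i j) x
      (C (k + 1) * (2 * c1 (k + 1)) / ‖x‖) :=
    (hC (k + 1) Ψ _ x _ h.l s1 x1 (fun k l => (hc _ _ y1 k l).1) i j).mono le_rfl (by
      refine (mul_le_of_le_one_right (by positivity) q1).trans ?_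
      rw [mul_div_assoc]
      refine mul_le_mul_of_nonneg_left ?_ Ck.le
      rw [div_le_div_iff₀ (by linarith) x0]
      nlinarith [n.1])
  have h2 := hC (k + 1) Ψ _ x _ h.l (fun k l => (d.2.1.1 k l).2) x1
    (fun k l => (hc _ _ y1 k l).2) i j k k.le_succ
  have e : (fun y => (d.1.pull Ψ).h y i j) =ᶠ[𝓝 x] fun y => pl Ψ (fun k l _ => (1 : P354J.M3) k l) i j y +
      pl Ψ (fun k l z => d.1.h z k l - (1 : P354J.M3) k l) i j y := .of_forall fun y => by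
    simp only [Dat.pull, of_apply, pl, mul_sub, Finset.sum_sub_distrib, add_sub_cancel]
  have h3 := (h0.add (pl_sm h.l s0 i j) (pl_sm h.l s1 i j) x1 h1).congr e
  have x2 : 1 ≤ ‖x‖ := y1.trans n.2
  have b : C (k + 1) * (2 * c1 (k + 1)) ≤ C (k + 1) * (2 * c1 (k + 1)) * ρ :=
    le_mul_of_one_le_right (by positivity) r1
  refine ⟨(h3 k k.le_succ).trans ?_, ?_, ?_⟩
  · linarith [div_le_self (show 0 ≤ C (k + 1) * (2 * c1 (k + 1)) by positivity) x2]
  · rw [pow_succ' _ (k + 1), mul_assoc, ← le_div_iff₀' x0]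
    rcases le_or_gt ‖x‖ (10 * ρ) with g | g
    · refine (h3 _ le_rfl).trans ?_
      rw [le_div_iff₀ x0, add_mul, div_mul_cancel₀ _ x0.ne']
      nlinarith [mul_le_mul_of_nonneg_left g Ck.le, mul_pos Ck (one_pos.trans_le r1)]
    · have o : IsOpen {y : X | 10 * ρ < ‖y‖} := isOpen_lt continuous_const continuous_norm
      have e2 : (fun y => (d.1.pull Ψ).h y i j) =ᶠ[𝓝 x] fun y =>
          (∑ k, ∑ l, LamL σ (ee i) k * LamL σ (ee j) l * (1 : P354J.M3) k l) +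
          pl Ψ (fun k l z => d.1.h z k l - (1 : P354J.M3) k l) i j y := by
        filter_upwards [e, o.mem_nhds g] with y e hy
        have : Ψ =ᶠ[𝓝 y] LamL σ := by
          filter_upwards [o.mem_nhds hy] with z hz using hl z (le_of_lt hz)
        rw [e, pl]
        simp only [pd, this.fderiv_eq, ContinuousLinearMap.fderiv]
      rw [(e2.iteratedFDeriv ℝ (k + 1)).eq_of_nhds, P354T.iter_add contDiffOn_const
        (pl_sm h.l s1 i j) _ x1, iteratedFDeriv_const_of_ne k.succ_ne_zero, Pi.zero_apply, zero_add]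
      refine (h1 _ le_rfl).trans (div_le_div_of_nonneg_right ?_ x0.le)
      nlinarith [mul_pos Ck (one_pos.trans_le r1)]
  · have k2 := mul_le_mul_of_nonneg_left h2 (sq_nonneg ‖x‖)
    have e3 : ‖x‖ ^ 2 * (C (k + 1) * (c1 (k + 1) / ‖Ψ x‖ ^ 2) * (‖Ψ x‖ ^ 2 / ‖x‖ ^ 2)) =
        C (k + 1) * c1 (k + 1) := by field_simp
    rw [e3, ← mul_assoc, ← pow_add, add_comm 2] at k2
    refine k2.trans ?_
    nlinarith [mul_pos Ck (one_pos.trans_le r1), mul_nonneg Ck.le ck]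

end Vale.Agent.P354PP
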