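import Vale.Agent.P354XP.Props
import Vale.Agent.P354XP.Moll

/-!
MOL: extension by zero and mollification of families.
-/

open scoped ContDiff
open Set Filter Topology

noncomputable section

namespace Vale.Agent.P354PP

open Vale.Agent.P354I (X ee pd)
open Vale.Agent.P354XP

variable {P : Type}

/-- The frame on the whole space. -/
def gl (F : Fr P X) : Fr P X where
  l := F.l
  e := ee
  U _ := univ
  V _ := univ
  G := F.G
  c _ := 1
  ok := F.ok.mono fun _ o => ⟨isOpen_univ, subset_rfl, o.2.2.1, fun _ _ _ => zero_le_one⟩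

/-- Test functions. -/
def Ts (g : X → ℝ) : Prop := ContDiff ℝ ∞ g ∧ HasCompactSupport g

theorem Ts.pd {g : X → ℝ} (h : Ts g) (i : Fin 3) : Ts (pd i g) :=
  ⟨(h.1.fderiv_right (m := ∞) le_rfl).clm_apply contDiff_const, h.2.fderiv_apply ℝ (ee i)⟩

theorem dw_eq : ∀ (β : List (Fin 3)) (f : Fn P X) (r : P), Fr.Dw ee β f r = pw β (f r)
  | [], _, _ => rfl
  | i :: β, f, r => dw_eq β (D ee i f) r

theorem of_gl {F F' : Fr P X} (hl : F'.l = F.l) (he : F'.e = ee) (hc : ∀ i, F'.c i = 1)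
    (hG : ∀ᶠ r in F.l, F.G r ≤ F'.G r) {k : ℕ} {s f : Fn P X} (h : (gl F).T k s f) :
    F'.T k s f := by
  refine Fr.T.sub_fr (F := gl F) (π := id) hl.le he 1 ?_ h
  filter_upwards [hl ▸ hG, F'.ok] with r g o
  refine ⟨subset_univ _, subset_univ _, g.trans_eq (pow_one _).symm, fun i x _ => ?_⟩
  rw [hc]
  exact le_mul_of_one_le_left zero_le_one (by rw [pow_one]; linarith [o.2.2.1])

theorem sub_b {F : Fr P X} {δ a : P → ℝ} {M : P → (X → ℝ) → X → ℝ}
    (hM : ∀ᶠ r in F.l, 0 ≤ δ r ∧ 0 ≤ a r ∧ ∀ g, Ts g → ContDiff ℝ ∞ (M r g) ∧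
      (∀ i, pd i (M r g) = M r (pd i g)) ∧
      ∀ c, (∀ i x, |pd i g x| ≤ c) → ∀ x, |M r g x - g x| ≤ 3 * δ r * c) :
    ∀ (k : ℕ) (g : Fn P X), (∀ᶠ r in F.l, Ts (g r)) → (gl F).B (k + 1) (pr a) g →
      (gl F).B k (pr (δ * a)) ((fun r => M r (g r)) - g) := by
  have h0 : ∀ g : Fn P X, (∀ᶠ r in F.l, Ts (g r)) → (∀ i, (gl F).B0 (pr a * 1) (D ee i g)) →
      (gl F).B0 (pr (δ * a)) ((fun r => M r (g r)) - g) := fun g hg h => by
    choose n hn using h
    refine ⟨∑ i, n i + 2, ?_⟩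
    filter_upwards [hM, hg, eventually_all.2 hn, F.ok] with r m hg hn o x _
    have g2 := o.2.2.1
    have k := (m.2.2 _ hg).2.2 (F.G r ^ (∑ i, n i) * a r) (fun i x => (hn i x trivial).trans
      (mul_le_mul (pow_le_pow_right₀ (show 1 ≤ F.G r by linarith) (Finset.single_le_sum
        (fun _ _ => Nat.zero_le _) (Finset.mem_univ i))) (mul_one _).le
        (mul_nonneg m.2.1 zero_le_one) (by positivity))) x
    refine k.trans ?_
    have p : 0 ≤ F.G r ^ (∑ i, n i) * (δ r * a r) := by have := m.1; have := m.2.1; positivity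
    have q : 3 ≤ F.G r ^ 2 := by nlinarith
    show _ ≤ F.G r ^ (∑ i, n i + 2) * (δ r * a r)
    rw [pow_add]
    nlinarith [mul_le_mul_of_nonneg_left q p]
  intro k
  induction k with
  | zero => exact fun g hg h => h0 g hg h.2
  | succ k ih =>
    refine fun g hg h => ⟨h0 g hg fun i => (h.2 i).1, fun i => ?_⟩
    have e : ∀ s : Fn P X, s * (gl F).c i = s := mul_one
    have k := h.2 i
    rw [e] at k ⊢
    refine (ih _ (hg.mono fun r h => h.pd i) k).congr ?_
    filter_upwards [hM, hg] with r m hg x _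
    have d1 := (m.2.2 _ hg).1.differentiable (by simp) x
    have d2 := hg.1.differentiable (by simp) x
    have e1 := congrFun ((m.2.2 _ hg).2.1 i) x
    show M r (pd i (g r)) x - pd i (g r) x = fderiv ℝ (M r (g r) - g r) x (ee i)
    rw [fderiv_sub d1 d2, ← e1]
    rfl

theorem mol : MOL := fun P F C δ he hV hc hC => by
  obtain ⟨K, hK⟩ := moll
  choose! M hM using hK
  refine ⟨fun f r => (C r).indicator (f r), fun f r => M (δ r) ((C r).indicator (f r)),
    fun k a f hf ha hz => ?_⟩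
  have e : F.Eq f fun r => (C r).indicator (f r) := Eventually.mono hz fun r h x hx => by
    by_cases c : x ∈ C r
    · exact (indicator_of_mem c _).symm
    · exact (h x hx c).trans (indicator_of_notMem c _).symm
  have ev : ∀ᶠ r in F.l, ∀ x, (x ∈ F.U r → (C r).indicator (f r) =ᶠ[𝓝 x] f r) ∧
      (x ∉ F.U r → (C r).indicator (f r) =ᶠ[𝓝 x] fun _ => 0) := by
    filter_upwards [e, hC, F.ok] with r e c o x
    refine ⟨fun hx => ?_, fun hx => ?_⟩
    · filter_upwards [o.1.mem_nhds hx] with y hy using (e y hy).symm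
    · filter_upwards [c.1.isClosed.isOpen_compl.mem_nhds fun h => hx (c.2.1 h)] with y hy
      exact indicator_of_notMem hy _
  have ts : ∀ᶠ r in F.l, Ts ((C r).indicator (f r)) := by
    filter_upwards [ev, hC, hf.sm, F.ok] with r ev c s o
    refine ⟨contDiff_iff_contDiffAt.2 fun x => ?_,
      HasCompactSupport.intro c.1 fun x hx => indicator_of_notMem hx _⟩
    by_cases hx : x ∈ F.U r
    · exact (s.contDiffAt (o.1.mem_nhds hx)).congr_of_eventuallyEq ((ev x).1 hx)
    · exact contDiffAt_const.congr_of_eventuallyEq ((ev x).2 hx)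
  have hE : (gl F).T (k + 1) (pr a) fun r => (C r).indicator (f r) := by
    refine ⟨ts.mono fun r h => h.1.contDiffOn, Fr.B.tr (F := F) (F' := gl F) (π := id)
      (W := F.U) tendsto_id he.symm (fun i => ⟨0, .of_forall fun r x _ _ => by simp [hc, gl]⟩) hf.b
      (fun n => ⟨n, ha.mono fun r h x _ => ⟨h, fun _ => le_rfl⟩⟩) ?_⟩
    filter_upwards [ev] with r ev x _
    exact ⟨fun hx => ⟨hV ▸ hx, (ev x).1 hx⟩, (ev x).2⟩
  have sM : ∀ᶠ r in F.l, ContDiff ℝ ∞ (M (δ r) ((C r).indicator (f r))) := by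
    filter_upwards [hC, ts] with r c t using (hM _ c.2.2 _ t.1 t.2).1
  refine ⟨e, ?_, fun F' hl he' hc' hG => ⟨of_gl hl he' hc' hG hE, of_gl hl he' hc' hG ⟨?_, ?_⟩,
    fun hd m => ⟨hl.le (sM.mono fun r h => h.contDiffOn), ?_⟩⟩⟩
  · filter_upwards [hC, ts] with r c t
    refine ⟨fun x hx => indicator_of_notMem hx _, fun x hx => ?_⟩
    obtain ⟨s, hs, v, h0, h1, h2, h3⟩ := (hM _ c.2.2 _ t.1 t.2).2.1 x hx
    exact ⟨s, ⟨hs.1, hs.2.trans c.2.2.2⟩, v, h0, h1, h2, mem_of_indicator_ne_zero h3⟩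
  · filter_upwards [sM, ts] with r s t using (s.sub t.1).contDiffOn
  · refine sub_b (M := fun r => M (δ r)) ?_ k _ ts hE.b
    filter_upwards [hC, ha] with r c a0
    exact ⟨c.2.2.1.le, a0, fun g t => ⟨(hM _ c.2.2 _ t.1 t.2).1, (hM _ c.2.2 _ t.1 t.2).2.2.1,
      (hM _ c.2.2 _ t.1 t.2).2.2.2.1⟩⟩
  · obtain ⟨n, hn⟩ := hE.b0
    obtain ⟨N, hN⟩ := pow_unbounded_of_one_lt (∑ j ∈ Finset.range (m + 1), |K j|)
      (one_lt_two (α := ℝ))
    refine Fr.B.of_words (N + n + m) ?_
    rw [hl, he']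
    filter_upwards [hC, ts, hn, hG, hd, ha, F.ok] with r c t hn g d a0 o β hβ x _
    have g2 := o.2.2.1
    have d0 := c.2.2.1
    have k1 : K β.length ≤ F'.G r ^ N := ((le_abs_self _).trans (Finset.single_le_sum
      (f := fun j => |K j|) (fun _ _ => abs_nonneg _) (Finset.mem_range.2 (by omega)))).trans
      (hN.le.trans (pow_le_pow_left₀ zero_le_two (g2.trans g) N))
    have k2 : (δ r ^ β.length)⁻¹ ≤ F'.G r ^ m := by
      rw [← inv_pow]
      exact (pow_le_pow_left₀ (by positivity) d _).trans (pow_le_pow_right₀ (by linarith) hβ)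
    have k3 : F.G r ^ n * a r ≤ F'.G r ^ n * a r :=
      mul_le_mul_of_nonneg_right (pow_le_pow_left₀ (by linarith) g n) a0
    have g0 : 0 ≤ F'.G r := by linarith
    have e1 : (pr a * (β.map F'.c).prod : Fn P X) r x = a r := by
      rw [show F'.c = fun _ => 1 from funext hc']
      simp [pr]
    rw [dw_eq, e1]
    refine ((hM _ c.2.2 _ t.1 t.2).2.2.2.2 (F.G r ^ n * a r) (fun y => hn y trivial) β x).trans ?_
    calc K β.length * (F.G r ^ n * a r) / δ r ^ β.length
        ≤ F'.G r ^ N * (F'.G r ^ n * a r) * F'.G r ^ m := by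
          rw [div_eq_mul_inv]
          exact mul_le_mul (mul_le_mul k1 k3 (by positivity) (by positivity)) k2 (by positivity)
            (by positivity)
      _ = _ := by ring

end Vale.Agent.P354PP
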